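import Crest.Agent.X212.Map77.Tw
import Crest.Agent.X212.Eqv71.Res
import Crest.Agent.X212.Nk89.Dic
import Crest.Agent.X212.Mod61.Tr

-- ▼ part X212/Nat27/Tr
section

/-!
# X212 / Nat27 (helper27): transport of Sobolev spaces along isometries of clopen sets
-/

set_option autoImplicit false
set_option linter.unusedSectionVars false
noncomputable section
open scoped Manifold ContDiff Topology InnerProductSpace
open MeasureTheory Set Function Filter

namespace Crest.Agent.X212.Nat27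
open An An.Pre Sob92 Ell97 Prm93 Fred93 Eqv71

variable {E : Type} [NormedAddCommGroup E] [NormedSpace ℝ E] [FiniteDimensional ℝ E]
  [MeasurableSpace E] [BorelSpace E]
  {HM : Type} [TopologicalSpace HM] {I : ModelWithCorners ℝ E HM} [I.Boundaryless]
  {M : Type} [TopologicalSpace M] [ChartedSpace HM M] [IsManifold I ∞ M]
  [MeasurableSpace M] [T2Space M] [BorelSpace M] [SecondCountableTopology M] {ι : Type} [Fintype ι]
  {E' : Type} [NormedAddCommGroup E'] [NormedSpace ℝ E'] [FiniteDimensional ℝ E']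
  [MeasurableSpace E'] [BorelSpace E']
  {HM' : Type} [TopologicalSpace HM'] {I' : ModelWithCorners ℝ E' HM'} [I'.Boundaryless]
  {M' : Type} [TopologicalSpace M'] [ChartedSpace HM' M'] [IsManifold I' ∞ M']
  [MeasurableSpace M'] [T2Space M'] [BorelSpace M'] [SecondCountableTopology M']
  {ι' : Type} [Fintype ι']
  {N : Type} [NormedAddCommGroup N] [NormedSpace ℝ N]
  {V W V' W' : Type} [NormedAddCommGroup V] [InnerProductSpace ℝ V]
  [NormedAddCommGroup W] [InnerProductSpace ℝ W] [NormedAddCommGroup V'] [InnerProductSpace ℝ V']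
  [NormedAddCommGroup W'] [InnerProductSpace ℝ W']
  {F : Fr I M ι} {F' : Fr I' M' ι'} {O : Set M} {O' : Set M'} {φ : M → M'} {ψ : M' → M}
  {U : M → ι' → ι → ℝ} {x : M} {y : M'} {f : M → N}

/-- the transported function -/
def pu (O' : Set M') (ψ : M' → M) (f : M → N) : M' → N := O'.indicator fun y => f (ψ y)

theorem pu_on (hy : y ∈ O') (f : M → N) : pu O' ψ f y = f (ψ y) := indicator_of_mem hy _

theorem pu_off (hy : y ∉ O') (f : M → N) : pu O' ψ f y = 0 := indicator_of_notMem hy _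

variable (F F' O O' φ ψ U) in
/-- an isometry of clopen sets with a bounded rotation of the frames -/
structure PT : Prop where
  cl : IsClosed O
  cl' : IsClosed O'
  rot : Rot I I' φ O F.e F.P F'.e F'.P fun b a x => U x b a
  inv : Inv I I' φ ψ O O'
  μ : (F.μ.restrict O).map φ = F'.μ.restrict O'
  cb : ∀ b a, F.Cb (O.indicator fun x => U x b a)

namespace PT
variable (g : PT F F' O O' φ ψ U)
include g

theorem clo : IsClopen O := ⟨g.cl, g.rot.opn⟩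
theorem clo' : IsClopen O' := ⟨g.cl', g.inv.opn'⟩

theorem pu_φ (hx : x ∈ O) (f : M → N) : pu O' ψ f (φ x) = f x := by
  rw [pu_on (g.inv.maps hx), g.inv.linv x hx]

theorem sm (hf : Sm I f) : Sm I' (pu O' ψ f) := sm_ind g.clo' fun _ hy => g.inv.sa hy (hf _)

theorem hcs (hf : HasCompactSupport f) : HasCompactSupport (pu O' ψ f) := by
  refine HasCompactSupport.intro ((hf.inter_right g.cl).image_of_continuousOn
    fun x hx => (g.rot.sφ x hx.2).continuousAt.continuousWithinAt) fun y hy => ?_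
  exact indicator_apply_eq_zero.2 fun hy' => image_eq_zero_of_notMem_tsupport
    fun h => hy ⟨_, ⟨h, g.inv.maps' hy'⟩, g.inv.rinv y hy'⟩

theorem D (hf : Sm I f) (b : ι') : F'.D b (pu O' ψ f) =
    pu O' ψ fun x => ∑ a, O.indicator (fun x => U x b a) x • F.D a f x := funext fun y => by
  by_cases hy : y ∈ O'
  · obtain ⟨x, hx, rfl⟩ := g.inv.surj hy
    simp only [g.pu_φ hx, indicator_of_mem hx]
    exact g.rot.D'_of hx b (md (g.sm hf) _) ((g.rot.ev hx).mono fun z hz => g.pu_φ hz f)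
  · rw [pu, D_ind _ g.clo', indicator_of_notMem hy, pu_off hy]

theorem CB (k : ℕ) : ∀ {f : M → N}, F.Cb f → ∃ C, F'.CB k (pu O' ψ f) C := by
  have h0 : ∀ {f : M → N}, F.Cb f → ∃ C, ∀ y, ‖pu O' ψ f y‖ ≤ C := fun ⟨C, hC⟩ =>
    ⟨|C 0|, fun y => by
      by_cases hy : y ∈ O'
      · rw [pu_on hy]; exact CB_bound (CB_abs (hC.2 0)) _
      · simp [pu_off hy]⟩
  induction k with
  | zero => exact fun hf => (h0 hf).imp fun _ => CB_zero.2
  | succ k ih =>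
    intro f hf
    obtain ⟨C, hC⟩ := h0 hf
    choose D hD using fun b => ih (Cb_sum Finset.univ fun a _ => Cb_smul (g.cb b a) (Cb_D hf a))
    refine ⟨|C| + ∑ b, |D b|, CB_succ.2 ⟨fun y => (hC y).trans ((le_abs_self C).trans
      (le_add_of_nonneg_right (by positivity))), fun b => ?_⟩⟩
    rw [g.D hf.choose_spec.1]
    exact CB_mono (CB_abs (hD b)) ((Finset.single_le_sum (f := fun b => |D b|)
      (fun _ _ => abs_nonneg _) (Finset.mem_univ b)).trans (le_add_of_nonneg_left (abs_nonneg C)))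

theorem Cb (hf : F.Cb f) : F'.Cb (pu O' ψ f) :=
  ⟨fun k => (g.CB k hf).choose, g.sm hf.choose_spec.1, fun k => (g.CB k hf).choose_spec⟩

theorem symm : PT F' F O' O ψ φ fun y a b => U (ψ y) b a :=
  ⟨g.cl', g.cl, g.rot.symm (Wz78.frm F) g.inv, g.rot.inv g.inv, map_inv g.rot.opn g.inv.opn'
    (fun x hx => (g.rot.sφ x hx).continuousAt) (fun y hy => (g.inv.sψ y hy).continuousAt)
    g.inv.linv g.μ, fun a b => by
      convert g.Cb (g.cb b a) using 1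
      exact indicator_congr fun y hy => (indicator_of_mem (g.inv.maps' hy) fun x => U x b a).symm⟩

/-- integrals of related functions -/
theorem int {f : M → ℝ} {f' : M' → ℝ} (h : ∀ x ∈ O, f' (φ x) = f x) (h0 : ∀ x ∉ O, f x = 0)
    (h0' : ∀ y ∉ O', f' y = 0) : ∫ y, f' y ∂F'.μ = ∫ x, f x ∂F.μ := by
  rw [← setIntegral_eq_integral_of_forall_compl_eq_zero h0,
    ← setIntegral_eq_integral_of_forall_compl_eq_zero h0', integral_inv g.rot.opn g.inv.opn'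
      (fun x hx => (g.rot.sφ x hx).continuousAt) (fun y hy => (g.inv.sψ y hy).continuousAt)
      g.inv.linv g.inv.rinv g.μ]
  exact integral_congr_ae ((ae_restrict_mem g.rot.opn.measurableSet).mono h)

theorem nrm0 {u : M → V} (hu : Sm I u) (hc : HasCompactSupport u) :
    F'.nrm 0 (pu O' ψ u) ≤ F.nrm 0 u := by
  refine Real.sqrt_le_sqrt ((g.int (f := O.indicator fun x => ⟪u x, u x⟫_ℝ)
    (fun x hx => by rw [g.pu_φ hx, indicator_of_mem hx]) (fun x hx => indicator_of_notMem hx _)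
    fun y hy => by rw [pu_off hy, inner_zero_left]).trans_le ?_)
  rw [integral_indicator g.rot.opn.measurableSet]
  exact setIntegral_le_integral (F.integrable_inner hu.continuous hc hu.continuous)
    (.of_forall fun _ => real_inner_self_nonneg)

theorem nrm (k : ℕ) : ∃ C, 0 ≤ C ∧ ∀ {u : M → V}, Sm I u → HasCompactSupport u →
    F'.nrm k (pu O' ψ u) ≤ C * F.nrm k u := by
  induction k with
  | zero => exact ⟨1, zero_le_one, fun hu hc => (g.nrm0 hu hc).trans_eq (one_mul _).symm⟩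
  | succ k ih =>
    obtain ⟨C, C0, ih⟩ := ih
    obtain ⟨D, hD⟩ := Cb_unif (f := fun s : ι' × ι => O.indicator fun x => U x s.1 s.2)
      fun s => g.cb s.1 s.2
    have hK := cK_nonneg (ι := ι) k
    refine ⟨1 + Fintype.card ι' * (C * (Fintype.card ι * (cK ι k * |D k|))), by positivity,
      fun {u} hu hc => ?_⟩
    have s1 : ∀ b a, Sm I fun x => O.indicator (fun x => U x b a) x • F.D a u x :=
      fun b a => ((hD (b, a)).1).smul (F.sm_D hu a)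
    have s2 : ∀ b a, HasCompactSupport fun x => O.indicator (fun x => U x b a) x • F.D a u x :=
      fun b a => (F.hcs_D hc a).mono fun x hx h => hx (by simp [h])
    have h1 : ∀ b, F'.nrm k (F'.D b (pu O' ψ u)) ≤
        C * (Fintype.card ι * (cK ι k * |D k|) * F.nrm (k + 1) u) := fun b => by
      rw [g.D hu]
      refine (ih (contMDiff_finsetSum fun a _ => s1 b a) (HasCompactSupport.intro
        hc fun x hx => Finset.sum_eq_zero fun a _ => by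
          rw [image_eq_zero_of_notMem_tsupport (f := F.D a u) fun k => hx (F.tsupport_D u a k),
            smul_zero])).trans (mul_le_mul_of_nonneg_left ?_ C0)
      refine (nrm_sum_le Finset.univ k (fun a _ => s1 b a) fun a _ => s2 b a).trans
        ((Finset.sum_le_sum fun a _ => (nrm_smul (hD (b, a)).1 (F.sm_D hu a) ((hD (b, a)).2 k)
        (FL_of_hcs k (F.sm_D hu a) (F.hcs_D hc a))).trans
        (mul_le_mul_of_nonneg_left (nrm_D_le k u a) (by positivity))).trans (le_of_eq ?_))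
      simp [mul_assoc]
    have h2 := (g.nrm0 hu hc).trans (nrm_mono (Nat.zero_le (k + 1)) u)
    have h3 := Finset.sum_le_sum fun b (_ : b ∈ Finset.univ) => h1 b
    rw [Finset.sum_const, Finset.card_univ, nsmul_eq_mul] at h3
    exact (nrm_succ_le k _).trans ((add_le_add h2 h3).trans (le_of_eq (by ring)))

end PT

variable (F O O' φ) in
/-- a bounded isometry of bundles over `φ : O → O'` with the adjoint `T'` -/
structure BI (p : M → V →L[ℝ] V) (p' : M' → V' →L[ℝ] V') (T : M → V →L[ℝ] V')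
    (T' : M → V' →L[ℝ] V) : Prop where
  cb : F.Cb T
  cb' : F.Cb T'
  ad : ∀ x v v', ⟪T x v, v'⟫_ℝ = ⟪v, T' x v'⟫_ℝ
  m : ∀ x ∈ O, ∀ v, p x v = v → p' (φ x) (T x v) = T x v ∧ T' x (T x v) = v
  m' : ∀ x ∈ O, ∀ v, p' (φ x) v = v → p x (T' x v) = T' x v ∧ T x (T' x v) = v
  off : ∀ x ∉ O, ∀ v, p x v = v → v = 0
  off' : ∀ y ∉ O', ∀ v, p' y v = v → v = 0

variable {p : M → V →L[ℝ] V} {p' : M' → V' →L[ℝ] V'} {T : M → V →L[ℝ] V'} {T' : M → V' →L[ℝ] V}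
  {q : M → W →L[ℝ] W} {q' : M' → W' →L[ℝ] W'} {S : M → W →L[ℝ] W'} {S' : M → W' →L[ℝ] W}

variable (O φ T) in
/-- related sections -/
def RS (w : M → V) (w' : M' → V') : Prop := ∀ x ∈ O, w' (φ x) = T x (w x)

variable (O' ψ T) in
/-- the transported section -/
def tr (w : M → V) : M' → V' := pu O' ψ fun x => T x (w x)

namespace BI
variable (a : BI F O O' φ p p' T T') (g : PT F F' O O' φ ψ U)
include a g

theorem symm : BI F' O' O ψ p' p (pu O' ψ T') (pu O' ψ T) where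
  cb := g.Cb a.cb'
  cb' := g.Cb a.cb
  ad y v v' := by
    by_cases hy : y ∈ O'
    · rw [pu_on hy, pu_on hy, real_inner_comm, ← a.ad, real_inner_comm]
    · simp [pu_off hy]
  m y hy v hv := by
    obtain ⟨x, hx, rfl⟩ := g.inv.surj hy
    simpa only [g.pu_φ hx, g.inv.linv x hx] using a.m' x hx v hv
  m' y hy v hv := by
    obtain ⟨x, hx, rfl⟩ := g.inv.surj hy
    rw [g.inv.linv x hx] at hv
    simpa only [g.pu_φ hx] using a.m x hx v hv
  off := a.off'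
  off' := a.off

omit a in
theorem _root_.Crest.Agent.X212.Nat27.PT.rs (w : M → V) : RS O φ T w (tr O' ψ T w) :=
  fun _ hx => g.pu_φ hx _

theorem mem {w : M → V} (hw : w ∈ Sec I p) : tr O' ψ T w ∈ Sec I' p' :=
  ⟨g.sm (a.cb.choose_spec.1.clm_apply hw.1), g.hcs (hw.2.1.mono fun x hx h => hx (by simp [h])),
    fun y => by
      by_cases hy : y ∈ O'
      · obtain ⟨x, hx, rfl⟩ := g.inv.surj hy
        rw [g.rs w x hx]
        exact (a.m x hx _ (hw.2.2 x)).1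
      · rw [tr, pu_off hy, map_zero]⟩

theorem eq_tr {w : M → V} {w' : M' → V'} (hw : w' ∈ Sec I' p') (h : RS O φ T w w') :
    w' = tr O' ψ T w := funext fun y => by
  by_cases hy : y ∈ O'
  · obtain ⟨x, hx, rfl⟩ := g.inv.surj hy
    rw [g.rs w x hx, h x hx]
  · rw [tr, pu_off hy, a.off' y hy _ (hw.2.2 y)]

theorem rs_symm {w' : M' → V'} (hw : w' ∈ Sec I' p') : RS O φ T (tr O φ (pu O' ψ T') w') w' :=
  fun x hx => by
    rw [tr, pu_on hx, g.pu_φ hx]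
    exact (a.m' x hx _ (hw.2.2 _)).2.symm

theorem rep (k : ℕ) : F.RepT F'.toPre (F.liftT k k p F'.toPre p' (tr O' ψ T)) (tr O' ψ T) := by
  obtain ⟨C, C0, hC⟩ := g.nrm (V := V') k
  obtain ⟨D, hD⟩ := a.cb
  have hK := cK_nonneg (ι := ι) k
  refine (rep_liftT (fun _ => a.mem g) (fun u _ v _ => funext fun y => ?_)
    (fun c u _ => funext fun y => ?_) (C := C * (cK ι k * |D k|)) (by positivity) fun u hu => ?_).1
  · by_cases hy : y ∈ O' <;> simp [tr, pu, hy]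
  · by_cases hy : y ∈ O' <;> simp [tr, pu, hy]
  · exact (hC (hD.1.clm_apply hu.1) (hu.2.1.mono fun x hx h => hx (by simp [h]))).trans
      ((mul_le_mul_of_nonneg_left (nrm_app hD.1 hu.1 (hD.2 k) (FL_of_hcs k hu.1 hu.2.1)) C0).trans_eq
        (mul_assoc _ _ _).symm)

/-- **the transport of Sobolev spaces** -/
def eH (k : ℕ) : F.H k p ≃L[ℝ] F'.H k p' :=
  .equivOfInverse (F.liftT k k p F'.toPre p' (tr O' ψ T))
    (F'.liftT k k p' F.toPre p (tr O φ (pu O' ψ T')))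
    (DFunLike.congr_fun (RepT_eq (RepT_comp ((a.symm g).rep g.symm k) (a.rep g k)) Rep_id
      fun u => ((a.symm g).eq_tr g.symm u.2 fun y hy => by
        obtain ⟨x, hx, rfl⟩ := g.inv.surj hy
        rw [g.rs _ x hx, g.pu_φ hx, g.inv.linv x hx, (a.m x hx _ (u.2.2.2 x)).2]).symm))
    (DFunLike.congr_fun (RepT_eq (RepT_comp (a.rep g k) ((a.symm g).rep g.symm k)) Rep_id
      fun u => (a.eq_tr g u.2 (a.rs_symm g u.2)).symm))

variable (b : BI F O O' φ q q' S S')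
include b

/-- **conjugate operators have the same index** -/
theorem fr {j k : ℕ} {A : F.H j p →L[ℝ] F.H k q} {A' : F'.H j p' →L[ℝ] F'.H k q'}
    {L : (M → V) → M → W} {L' : (M' → V') → M' → W'} (hA : F.Rep A L) (hA' : F'.Rep A' L')
    (nat : ∀ w ∈ Sec I p, ∀ w' ∈ Sec I' p', RS O φ T w w' → RS O φ S (L w) (L' w')) {d : ℤ}
    (h : Fr A d) : Fr A' d := by
  have r := RepT_comp hA' (a.rep g j)
  have e := RepT_eq r (RepT_comp (b.rep g k) hA) fun u =>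
    b.eq_tr g (RepT_mem r u) (nat _ u.2 _ (a.mem g u.2) (g.rs _))
  refine (h.conj (a.eH g j).symm (b.eH g k)).congr fun v => ?_
  obtain ⟨v, rfl⟩ := (a.eH g j).surjective v
  simp only [ContinuousLinearMap.comp_apply, ContinuousLinearEquiv.coe_coe,
    ContinuousLinearEquiv.symm_apply_apply]
  exact DFunLike.congr_fun e v

end BI

/-- **formal adjoints are natural** -/
theorem adj_rs [FiniteDimensional ℝ V] [FiniteDimensional ℝ W] [FiniteDimensional ℝ V']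
    [FiniteDimensional ℝ W'] {A : Op M ι V W} {A' : Op M' ι' V' W'} {C C' : ℕ → ℝ}
    (g : PT F F' O O' φ ψ U) (t : F.Tame C) (h : A.Good F C) (t' : F'.Tame C') (h' : A'.Good F' C')
    (a : BI F O O' φ A.p A'.p T T') (b : BI F O O' φ A.q A'.q S S')
    (nat : ∀ w ∈ Sec I A.p, ∀ w' ∈ Sec I' A'.p, RS O φ T w w' → RS O φ S (A.app F w) (A'.app F' w'))
    {v : M → W} (hv : v ∈ Sec I A.q) {v' : M' → W'} (hv' : v' ∈ Sec I' A'.q) (r : RS O φ S v v') :
    RS O φ T ((A.adj F).app F v) ((A'.adj F').app F' v') := by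
  have h1 : (A'.adj F').app F' v' ∈ Sec I' A'.p :=
    RepT_mem (rep_OpH (good_adj t' h').choose_spec 0).1 ⟨_, hv'⟩
  have h2 : (A.adj F).app F v ∈ Sec I A.p :=
    RepT_mem (rep_OpH (good_adj t h).choose_spec 0).1 ⟨_, hv⟩
  have h3 := sub_mem h1 (a.mem g h2)
  have h4 := (a.symm g).mem g.symm h3
  have e1 := adj_ip h' ⟨_, h3⟩ (toT _ ⟨_, hv'⟩)
  have e2 := adj_ip h ⟨_, h4⟩ (toT _ ⟨_, hv⟩)
  have n := nat _ h4 _ h3 (a.rs_symm g h3)
  have e3 := e1.symm.trans ((g.int (fun x hx => ?_) (fun x hx => ?_) fun x hx => ?_).trans e2)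
  rotate_left
  · exact (congrArg₂ (⟪·, ·⟫_ℝ) (n x hx) (r x hx)).trans ((b.ad _ _ _).trans
      (congrArg (⟪_, ·⟫_ℝ) (b.m x hx _ (hv.2.2 x)).2))
  · exact (congrArg (⟪_, ·⟫_ℝ) (b.off x hx _ (hv.2.2 x))).trans (inner_zero_right _)
  · exact (congrArg (⟪_, ·⟫_ℝ) (b.off' x hx _ (hv'.2.2 x))).trans (inner_zero_right _)
  replace e3 : F'.ip 0 ((A'.adj F').app F' v' - tr O' ψ T ((A.adj F).app F v))
      ((A'.adj F').app F' v') = F.ip 0 (tr O φ (pu O' ψ T') ((A'.adj F').app F' v' -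
        tr O' ψ T ((A.adj F).app F v))) ((A.adj F).app F v) := e3
  clear e1 e2 n
  generalize (A'.adj F').app F' v' = s at *
  generalize (A.adj F).app F v = u at *
  have := Sob92.openPos F'.toPre
  have e4 : ∫ y, ⟪(s - tr O' ψ T u) y, (s - tr O' ψ T u) y⟫_ℝ ∂F'.μ = 0 := by
    refine (integral_congr_ae (.of_forall fun x => inner_sub_right _ _ _)).trans
      ((integral_sub (F'.integrable_inner h3.1.continuous h3.2.1 h1.1.continuous)
        (F'.integrable_inner h3.1.continuous h3.2.1 (a.mem g h2).1.continuous)).trans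
        (sub_eq_zero.2 (e3.trans (g.int (fun x hx => ?_) (fun x hx => ?_) fun x hx => ?_).symm)))
    · rw [g.rs u x hx, real_inner_comm, a.ad, real_inner_comm, ← g.pu_φ hx T']
      exact congrArg (⟪·, _⟫_ℝ) (pu_on hx fun y => pu O' ψ T' y ((s - tr O' ψ T u) y)).symm
    · rw [a.off x hx _ (h2.2.2 x), inner_zero_right]
    · rw [tr, pu_off hx, inner_zero_right]
  rw [integral_eq_zero_iff_of_nonneg (fun x => real_inner_self_nonneg)
    (F'.integrable_inner h3.1.continuous h3.2.1 h3.1.continuous),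
    (h3.1.continuous.inner h3.1.continuous).ae_eq_iff_eq _ continuous_zero] at e4
  exact fun x hx => (sub_eq_zero.1 (inner_self_eq_zero.1 (congrFun e4 (φ x)))).trans (g.rs u x hx)

end Crest.Agent.X212.Nat27
end
end

-- ▼ part X212/Nat27/Op

/-!
# X212 / Nat27 (helper27): the gauge fixed linearisation is natural under isometries
-/

set_option autoImplicit false
set_option linter.unusedSectionVars false
noncomputable section
open scoped Manifold ContDiff Topology InnerProductSpace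
open MeasureTheory Set Function Filter

namespace Crest.Agent.X212.Nat27
open An An.Pre Sob92 Ell97 Prm93 Fred93 Mod61 Map77 Nk89 Eqv71

variable {E : Type} [NormedAddCommGroup E] [NormedSpace ℝ E] [FiniteDimensional ℝ E]
  [MeasurableSpace E] [BorelSpace E]
  {HM : Type} [TopologicalSpace HM] {I : ModelWithCorners ℝ E HM} [I.Boundaryless]
  {M : Type} [TopologicalSpace M] [ChartedSpace HM M] [IsManifold I ∞ M]
  [MeasurableSpace M] [T2Space M] [BorelSpace M] [SecondCountableTopology M] {ι : Type} [Fintype ι]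
  {E' : Type} [NormedAddCommGroup E'] [NormedSpace ℝ E'] [FiniteDimensional ℝ E']
  [MeasurableSpace E'] [BorelSpace E']
  {HM' : Type} [TopologicalSpace HM'] {I' : ModelWithCorners ℝ E' HM'} [I'.Boundaryless]
  {M' : Type} [TopologicalSpace M'] [ChartedSpace HM' M'] [IsManifold I' ∞ M']
  [MeasurableSpace M'] [T2Space M'] [BorelSpace M'] [SecondCountableTopology M']
  {ι' : Type} [Fintype ι'] {lam lam' : Type} [Fintype lam] [Fintype lam'] {φ : M → M'} {ψ : M' → M}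
  {U : M → ι' → ι → ℝ} {v : M → CL (Eu lam) (Eu lam')} {x : M}

section gen
variable {V W V' W' : Type} [NormedAddCommGroup V] [InnerProductSpace ℝ V]
  [NormedAddCommGroup W] [InnerProductSpace ℝ W] [NormedAddCommGroup V'] [InnerProductSpace ℝ V']
  [NormedAddCommGroup W'] [InnerProductSpace ℝ W'] {O : Set M} {O' : Set M'}

theorem cb_ridx {F : Pre I M ι} {α α' : Type} [Fintype α] [Fintype α'] {R : M → α' → α → ℝ}
    {T : M → V →L[ℝ] V'} (hR : ∀ b a, F.Cb fun x => R x b a) (hT : F.Cb T) :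
    F.Cb fun x => ridx (R x) (T x) := by
  have : ∀ x, ridx (R x) (T x) = Map77.tp fun b => ∑ a, R x b a • T x ∘L Map77.pj V a :=
    fun _ => rfl
  simp only [this, Map77.tp_eq]
  exact Cb_sum _ fun b _ => Cb_comp (Cb_const _)
    (Cb_sum _ fun a _ => Cb_smul (hR b a) (Cb_comp hT (Cb_const _)))

theorem BI.sm2 {F : Fr I M ι} {p : M → V →L[ℝ] V} {p' : M' → V' →L[ℝ] V'} {T : M → V →L[ℝ] V'}
    {T' : M → V' →L[ℝ] V} {q : M → W →L[ℝ] W} {q' : M' → W' →L[ℝ] W'} {S : M → W →L[ℝ] W'}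
    {S' : M → W' →L[ℝ] W} (a : BI F O O' φ p p' T T') (b : BI F O O' φ q q' S S') :
    BI F O O' φ (ps p q) (ps p' q') (fun x => sm2 (T x) (S x)) fun x => sm2 (T' x) (S' x) where
  cb := Cb_pr2 (Cb_comp a.cb (Cb_const _)) (Cb_comp b.cb (Cb_const _))
  cb' := Cb_pr2 (Cb_comp a.cb' (Cb_const _)) (Cb_comp b.cb' (Cb_const _))
  ad x v v' := by simp only [inner2, f2_sm2, s2_sm2, a.ad, b.ad]
  m x hx v hv :=
    have h1 := a.m x hx _ (maps_f2 x v hv)
    have h2 := b.m x hx _ (maps_s2 x v hv)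
    ⟨ext2 (by simpa using h1.1) (by simpa using h2.1),
      ext2 (by simpa using h1.2) (by simpa using h2.2)⟩
  m' x hx v hv :=
    have h1 := a.m' x hx _ (maps_f2 _ v hv)
    have h2 := b.m' x hx _ (maps_s2 _ v hv)
    ⟨ext2 (by simpa using h1.1) (by simpa using h2.1),
      ext2 (by simpa using h1.2) (by simpa using h2.2)⟩
  off x hx v hv := ext2 (a.off x hx _ (maps_f2 x v hv)) (b.off x hx _ (maps_s2 x v hv))
  off' x hx v hv := ext2 (a.off' x hx _ (maps_f2 x v hv)) (b.off' x hx _ (maps_s2 x v hv))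

theorem lin_two {κ : Type} [Fintype κ] [DecidableEq κ] (d : Bd M ι κ) (G : Fr I M ι)
    {c w : M → Cf ι κ} (hc : Sm I c) (hw : Sm I w) (x : M) :
    G.op d.σ (fun x => Bc G x + (d.β x (c x) + (d.β x).flip (c x))) w x = (1 / 2 : ℝ) •
      (d.N G (fun y => c y + w y) x - d.N G (fun y => c y + (-w) y) x) := by
  have e1 := Bd.N_add (d := d) (G := G) c w hc hw x
  have e2 := Bd.N_add (d := d) (G := G) c (-w) hc hw.neg x
  rw [eq_add_of_sub_eq e1, eq_add_of_sub_eq e2]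
  simp only [Pre.op, Pre.D_def, dv_neg, Pi.neg_apply, map_neg, _root_.neg_apply, neg_neg,
    Finset.sum_neg_distrib]
  module

variable {B : Base M ι lam} {G : Geo I M ι lam} {B' : Base M' ι' lam'} {G' : Geo I' M' ι' lam'}
  {m : Md M ι lam} {m' : Md M' ι' lam'} {u : M → CL m.V m'.V} {W : m.Cn} {W' : m'.Cn}

theorem lm_congr (h : LM B G B' G' O φ U v W W' u) {U₁ : M → ι' → ι → ℝ} {u₁ : M → CL m.V m'.V}
    (eU : ∀ x ∈ O, U₁ x = U x) (eu : ∀ x ∈ O, u₁ x = u x) : LM B G B' G' O φ U₁ v W W' u₁ := by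
  have ev : ∀ x ∈ O, u₁ =ᶠ[𝓝 x] u := fun x hx => (h.rot.ev hx).mono eu
  refine ⟨⟨h.hB, h.hG, h.hB', h.hG', ⟨h.rot.opn, h.rot.sφ, fun b a x hx =>
    (h.rot.sU b a x hx).congr_of_eventuallyEq ((h.rot.ev hx).mono fun z hz => by simp [eU z hz]),
    fun b x hx => ?_, fun a b x hx => ?_, fun a b x hx => ?_⟩, fun x hx => eU x hx ▸ h.be x hx,
    h.sv, fun x hx a => ?_⟩, h.ok, h.ok', h.cn, h.cn',
    fun x hx => (h.su x hx).congr_of_eventuallyEq (ev x hx), fun x hx => ?_, fun x hx a => ?_⟩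
  · simpa only [eU x hx] using h.rot.fr b x hx
  · simpa only [eU x hx] using h.rot.UU a b x hx
  · simpa only [eU x hx] using h.rot.UU' a b x hx
  · simpa only [pb, eU x hx] using h.par x hx a
  · rw [eU x hx, eu x hx]; exact h.me x hx
  · rw [dv_congr (ev x hx)]; simpa only [pb, eU x hx, eu x hx] using h.itw x hx a

theorem cj_comp {x' : M'} {U : ι' → ι → ℝ} {v : CL (Eu lam) (Eu lam')} {u : CL m.V m'.V}
    (e : ME m x m' x' U v u) (ok : m.OK I B) {ξ : m.A} (hξ : ξ ∈ m.gS x) :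
    opL (cj u ξ) ∘L u = u ∘L opL ξ := by
  rw [opL_cj, ContinuousLinearMap.comp_assoc, ContinuousLinearMap.comp_assoc, e.uu]
  exact congrArg (u ∘L ·) (Wz78.g_p' ok hξ)

/-- variation of the connections -/
theorem lm_add (h : LM B G B' G' O φ U v W W' u) {α : M → Fm ι m.A} {α' : M' → Fm ι' m'.A}
    (hs : ∀ a, Sm I fun x => α x a) (hg : ∀ x a, α x a ∈ m.gS x)
    (hP : ∀ x a, ∑ b, B.P a b x • α x b = α x a) (hs' : ∀ a, Sm I' fun x => α' x a)
    (hg' : ∀ x a, α' x a ∈ m'.gS x) (hP' : ∀ x a, ∑ b, B'.P a b x • α' x b = α' x a)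
    (r : ∀ x ∈ O, α' (φ x) = ridx (U x) (cj (u x)) (α x)) :
    LM B G B' G' O φ U v (m.addC W α) (m'.addC W' α') u := by
  refine ⟨h.toLG, h.ok, h.ok', isConn_addC h.ok h.cn hs hg hP, isConn_addC h.ok' h.cn' hs' hg' hP',
    h.su, h.me, fun x hx a => ?_⟩
  have e : ∑ b, U x b a • α' (φ x) b = cj (u x) (α x a) := by
    simp only [r x hx, ridx_apply, Finset.smul_sum, smul_smul]
    rw [Finset.sum_comm, ← hP x a, map_sum]
    simp only [← Finset.sum_smul, (h.be x hx).UU, map_smul]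
  have e1 := h.itw x hx a
  simp only [pb, Md.addC, smul_add, Finset.sum_add_distrib, ← map_smul, ← map_sum, e,
    ContinuousLinearMap.add_comp, ContinuousLinearMap.comp_add, cj_comp (h.me x hx) h.ok (hg x a),
    ← add_assoc] at e1 ⊢
  rw [e1]

end gen

variable {T T' : Type} [NormedAddCommGroup T] [NormedSpace ℝ T] [NormedAddCommGroup T']
  [NormedSpace ℝ T'] {𝔉 : Fam I M ι lam T} {𝔊 : Fam I' M' ι' lam' T'} {o : Ref 𝔉} {o' : Ref 𝔊}
  {t : T} {t' : T'}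

theorem inv_idx {α : Type} [Fintype α] {S R : α → α → ℝ} {ξ : Fm α o.m.A}
    (hξ : idx S (o.Pg x) ξ = ξ) (hR : ∀ a, ∑ b, R a b • ξ b = ξ a) :
    ridx R (cj (o.m.p x)) ξ = ξ := fm_ext fun a => by
  rw [ridx_apply, ← hR a]
  exact Finset.sum_congr rfl fun b _ => congrArg _ (ME.cj_p (idx_mem hξ b))

/-- pointwise related references -/
structure PR (o : Ref 𝔉) (x : M) (o' : Ref 𝔊) (x' : M') (U : ι' → ι → ℝ)
    (v : CL (Eu lam) (Eu lam')) (u : CL o.m.V o'.m.V) : Prop where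
  ok : 𝔉.OK
  ok' : 𝔊.OK
  hx : x ∈ 𝔉.Om
  hx' : x' ∈ 𝔊.Om
  sp : x ∈ 𝔉.Om' ↔ x' ∈ 𝔊.Om'
  be : BE 𝔉.B x 𝔊.B x' U v
  me : ME o.m x o'.m x' U v u

namespace PR
variable {x' : M'} {U : ι' → ι → ℝ} {v : CL (Eu lam) (Eu lam')} {u : CL o.m.V o'.m.V}
  (e : PR o x o' x' U v u)
include e

theorem symm : PR o' x' o x (fun a b => U b a) (trn v) (trn u) :=
  ⟨e.ok', e.ok, e.hx', e.hx, e.sp.symm, e.be.symm e.ok.B e.ok'.B, e.me.symm e.be o.ok o'.ok⟩

theorem cg (ξ : o.m.A) : o'.Pg x' (cj u ξ) = cj u (o.Pg x ξ) := by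
  rw [Ref.Pg, Ref.Pg, indicator_of_mem e.hx, indicator_of_mem e.hx']
  exact e.me.pg e.be e.ok.B e.ok'.B o.ok o'.ok ξ

theorem c1 (ξ : Fm ι o.m.A) : o'.P1 x' (ridx U (cj u) ξ) = ridx U (cj u) (o.P1 x ξ) := by
  rw [Ref.P1, Ref.P1, Ref.Pg, Ref.Pg, indicator_of_mem e.hx, indicator_of_mem e.hx']
  exact e.me.p1 e.be e.ok.B e.ok'.B o.ok o'.ok ξ

theorem c2 (ξ : Fm (ι × ι) o.m.A) :
    o'.P2 x' (ridx (sq2 U) (cj u) ξ) = ridx (sq2 U) (cj u) (o.P2 x ξ) := by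
  rw [Ref.P2, Ref.P2, Ref.Pg, Ref.Pg, indicator_of_mem e.hx, indicator_of_mem e.hx']
  exact e.me.p2 e.be e.ok.B e.ok'.B o.ok o'.ok ξ

theorem cp (a : o.m.V) : o'.Pp x' (u a) = u (o.Pp x a) := by
  by_cases h : x ∈ 𝔉.Om'
  · rw [Ref.Pp, Ref.Pp, indicator_of_mem h, indicator_of_mem (e.sp.1 h)]
    exact e.me.pp e.be e.ok.B e.ok'.B o.ok a
  · simp [Ref.Pp, h, mt e.sp.2 h]

theorem cm (a : o.m.V) : o'.Pm x' (u a) = u (o.Pm x a) := by
  by_cases h : x ∈ 𝔉.Om'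
  · rw [Ref.Pm, Ref.Pm, indicator_of_mem h, indicator_of_mem (e.sp.1 h)]
    exact e.me.pm e.be e.ok.B e.ok'.B o.ok a
  · simp [Ref.Pm, h, mt e.sp.2 h]

theorem cC (z : Cf ι (Fin o.m.N)) : (bd o').pC x' (Map77.sm2 (ridx U (cj u)) u z) =
    Map77.sm2 (ridx U (cj u)) u ((bd o).pC x z) :=
  ext2 (by simp [e.c1]) (by simp [e.cp])

theorem ig {ξ : o.m.A} (h : o.Pg x ξ = ξ) :
    o'.Pg x' (cj u ξ) = cj u ξ ∧ cj (trn u) (cj u ξ) = ξ :=
  ⟨by rw [e.cg, h], e.me.trn_cj (mem_g o h)⟩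

theorem i1 {ξ : Fm ι o.m.A} (h : o.P1 x ξ = ξ) : o'.P1 x' (ridx U (cj u) ξ) = ridx U (cj u) ξ ∧
    ridx (fun a b => U b a) (cj (trn u)) (ridx U (cj u) ξ) = ξ :=
  ⟨by rw [e.c1, h], by
    rw [ridx_ridx, ridx_congr _ (T' := cj (o.m.p x)) fun b => by
      rw [ContinuousLinearMap.comp_apply, cj_cj, e.me.uu]]
    exact inv_idx h fun a => by
      simp only [e.be.UU]; exact h ▸ (ok_bd o e.ok).P_p1 x ξ a⟩

theorem i2 {ξ : Fm (ι × ι) o.m.A} (h : o.P2 x ξ = ξ) :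
    o'.P2 x' (ridx (sq2 U) (cj u) ξ) = ridx (sq2 U) (cj u) ξ ∧
    ridx (sq2 fun a b => U b a) (cj (trn u)) (ridx (sq2 U) (cj u) ξ) = ξ :=
  ⟨by rw [e.c2, h], by
    rw [ridx_ridx, ridx_congr _ (T' := cj (o.m.p x)) fun b => by
      rw [ContinuousLinearMap.comp_apply, cj_cj, e.me.uu]]
    exact inv_idx h fun a => by
      simp only [sq2_mul, e.be.UU]
      rw [Fintype.sum_prod_type]
      exact h ▸ ((ok_bd o e.ok).sd_p2 x ξ).PP a.1 a.2⟩

theorem ip {a : o.m.V} (h : o.Pp x a = a) : o'.Pp x' (u a) = u a ∧ trn u (u a) = a :=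
  ⟨by rw [e.cp, h], (DFunLike.congr_fun e.me.uu a).trans (by
    rw [← ind_fix h]; exact p_pp o.ok x a)⟩

theorem im {a : o.m.V} (h : o.Pm x a = a) : o'.Pm x' (u a) = u a ∧ trn u (u a) = a :=
  ⟨by rw [e.cm, h], (DFunLike.congr_fun e.me.uu a).trans (by
    rw [← ind_fix h]; exact p_pm o.ok x a)⟩

end PR

/-- related connections on two references -/
structure CI (o : Ref 𝔉) (o' : Ref 𝔊) (t : T) (t' : T') (φ : M → M') (U : M → ι' → ι → ℝ)
    (v : M → CL (Eu lam) (Eu lam')) (W : o.m.Cn) (W' : o'.m.Cn) (u : M → CL o.m.V o'.m.V) :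
    Prop where
  ok : 𝔉.OK
  ok' : 𝔊.OK
  ht : t ∈ 𝔉.Q
  ht' : t' ∈ 𝔊.Q
  lm : LM 𝔉.B (𝔉.G t) 𝔊.B (𝔊.G t') 𝔉.Om φ U v W W' u
  mp : MapsTo φ 𝔉.Om 𝔊.Om
  sp : ∀ x ∈ 𝔉.Om, x ∈ 𝔉.Om' ↔ φ x ∈ 𝔊.Om'

variable (U) in
/-- the action on fields -/
abbrev aC (u : M → CL o.m.V o'.m.V) (x : M) : CL (Cf ι (Fin o.m.N)) (Cf ι' (Fin o'.m.N)) :=
  Map77.sm2 (ridx (U x) (cj (u x))) (u x)

variable (U) in
/-- the action on equations -/
abbrev aE (u : M → CL o.m.V o'.m.V) (x : M) : CL (Ef ι (Fin o.m.N)) (Ef ι' (Fin o'.m.N)) :=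
  Map77.sm2 (u x) (ridx (sq2 (U x)) (cj (u x)))

theorem P2_N (h : 𝔉.OK) (ht : t ∈ 𝔉.Q) {W : o.m.Cn} {Φ : M → o.m.V} (s : Sm I (base W Φ))
    (hx : x ∈ 𝔉.Om) : o.P2 x (s2 _ _ ((bd o).N (Fs 𝔉 t) (base W Φ) x)) =
      o.m.p2 𝔉.B x (o.m.Fg (𝔉.G t).F W x) - o.m.mu 𝔉.B x (Φ x) (Φ x) := by
  have e := Bd.s2_N (d := bd o) ((adj_rem h).P _ ht) _ s x
  simp only [oa_base, fp_base] at e
  refine fm_ext fun s => ?_
  simp only [Ref.P2, Ref.Pg, indicator_of_mem hx, Md.p2, Md.mu, Md.Fg, Md.q, e,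
    PiLp.sub_apply, Map77.idx_apply, Wz78.pg_pg, map_sub, smul_sub, Finset.sum_sub_distrib]
  rfl

theorem raw_d0 {κ : Type} [Fintype κ] [DecidableEq κ] (G : Fr I M ι) (W : ι → M → En κ)
    (Φ : M → Eu κ) (ξ : M → HS κ) (x : M) :
    G.op (fun a x => σ0 (fun a b => G.P a b x) a) (fun x => l0 (base W Φ x)) ξ x =
      i1 _ _ (WithLp.toLp 2 fun a => -Wz78.nab I G.e (fun a x => adc (W a x)) a ξ x) +
        i2 _ _ (opL (ξ x) (Φ x)) := by
  refine ext2 (fm_ext fun a => ?_) (by simp [Pre.op, σ0, fp_l0])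
  simp only [Pre.op, map_add, map_sum, f2_i1, f2_i2, add_zero, PiLp.add_apply, fa_l0, oa_base, σ0,
    _root_.neg_apply, ContinuousLinearMap.comp_apply, map_neg, WithLp.ofLp_sum,
    Finset.sum_apply, PiLp.neg_apply, ea_apply, Finset.sum_neg_distrib, sum_P_D, Wz78.nab, neg_add]
  rfl

namespace CI
variable {W : o.m.Cn} {W' : o'.m.Cn} {u : M → CL o.m.V o'.m.V} (k : CI o o' t t' φ U v W W' u)
  {Φ : M → o.m.V} {Φ' : M' → o'.m.V}
include k

theorem pr (hx : x ∈ 𝔉.Om) : PR o x o' (φ x) (U x) (v x) (u x) :=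
  ⟨k.ok, k.ok', hx, k.mp hx, k.sp x hx, k.lm.be x hx, k.lm.me x hx⟩

theorem N (s : Sm I (base W Φ)) (s' : Sm I' (base W' Φ')) (r : RS 𝔉.Om φ u Φ Φ') (hx : x ∈ 𝔉.Om) :
    (bd o').pE (φ x) ((bd o').N (Fs 𝔊 t') (base W' Φ') (φ x)) =
      aE U u x ((bd o).pE x ((bd o).N (Fs 𝔉 t) (base W Φ) x)) := by
  have e := k.pr hx
  refine ext2 ?_ ?_
  · have h1 : Sm I Φ := by
      simpa only [Function.comp_def, fp_base] using (fp.contMDiff.comp s :)
    have h2 : Sm I' Φ' := by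
      simpa only [Function.comp_def, fp_base] using (fp.contMDiff.comp s' :)
    simp only [f2_ps, f2_sm2, Bd.f2_N _ s, Bd.f2_N _ s', oa_base, fp_base]
    exact (congrArg _ (k.lm.dir hx (h1 _) (h2 _) ((k.lm.rot.ev hx).mono r))).trans (e.cm _)
  · simp only [s2_ps, s2_sm2]
    rw [P2_N k.ok' k.ht' s' e.hx', P2_N k.ok k.ht s hx, k.lm.Fg hx, r x hx, map_sub,
      e.me.p2 e.be e.ok.B e.ok'.B o.ok o'.ok, e.me.mu e.be e.ok.B e.ok'.B o.ok o'.ok]

theorem add {w : M → Cf ι (Fin o.m.N)} (hw : w ∈ Sec I (bd o).pC) {w' : M' → Cf ι' (Fin o'.m.N)}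
    (hw' : w' ∈ Sec I' (bd o').pC) (r : RS 𝔉.Om φ (aC U u) w w') :
    CI o o' t t' φ U v (o.m.addC W fun x => fa (w x)) (o'.m.addC W' fun x => fa (w' x)) u :=
  have h1 := fun x => maps_f2 x _ (hw.2.2 x)
  have h2 := fun x => maps_f2 x _ (hw'.2.2 x)
  ⟨k.ok, k.ok', k.ht, k.ht', lm_add k.lm
    (fun a => (Map77.pj _ a ∘L fa).contMDiff.comp hw.1) (fun x => idx_mem (h1 x))
    (fun x a => h1 x ▸ (ok_bd o k.ok).P_p1 x _ a)
    (fun a => (Map77.pj _ a ∘L fa).contMDiff.comp hw'.1) (fun x => idx_mem (h2 x))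
    (fun x a => h2 x ▸ (ok_bd o' k.ok').P_p1 x _ a)
    fun x hx => (congrArg _ (r x hx)).trans (f2_sm2 _ _ _), k.mp, k.sp⟩

variable (s : 𝔉.F0.Cb (base W Φ)) (s' : 𝔊.F0.Cb (base W' Φ')) (r : RS 𝔉.Om φ u Φ Φ')
include s s' r

theorem N_add {w : M → Cf ι (Fin o.m.N)} (hw : w ∈ Sec I (bd o).pC) {w' : M' → Cf ι' (Fin o'.m.N)}
    (hw' : w' ∈ Sec I' (bd o').pC) (q : RS 𝔉.Om φ (aC U u) w w') (hx : x ∈ 𝔉.Om) :
    (bd o').pE (φ x) ((bd o').N (Fs 𝔊 t') (fun y => base W' Φ' y + w' y) (φ x)) =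
      aE U u x ((bd o).pE x ((bd o).N (Fs 𝔉 t) (fun y => base W Φ y + w y) x)) := by
  have e := funext fun x => base_add W Φ x w
  have e' := funext fun x => base_add W' Φ' x w'
  rw [← e, ← e']
  exact (k.add hw hw' q).N (Φ := fun y => Φ y + fp (w y)) (Φ' := fun y => Φ' y + fp (w' y))
    (e ▸ (Cb.sm s).add hw.1) (e' ▸ (Cb.sm s').add hw'.1)
    (fun x hx => by simp only [r x hx, q x hx, s2_sm2, map_add]) hx

theorem lin {w : M → Cf ι (Fin o.m.N)} (hw : w ∈ Sec I (bd o).pC) {w' : M' → Cf ι' (Fin o'.m.N)}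
    (hw' : w' ∈ Sec I' (bd o').pC) (q : RS 𝔉.Om φ (aC U u) w w') :
    RS 𝔉.Om φ (aE U u) (((bd o).lin (Fs 𝔉 t) (base W Φ)).app (Fs 𝔉 t) w)
      (((bd o').lin (Fs 𝔊 t') (base W' Φ')).app (Fs 𝔊 t') w') := fun x hx => by
  refine (op_cut _ (Cb.sm ((adj_rem k.ok').hy o' k.ht').cC) hw'.1 hw'.2.2 _).trans (Eq.trans ?_
    (congrArg _ (op_cut _ (Cb.sm ((adj_rem k.ok).hy o k.ht).cC) hw.1 hw.2.2 _)).symm)
  rw [lin_two _ _ (Cb.sm s) hw.1, lin_two _ _ (Cb.sm s') hw'.1, map_smul, map_sub,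
    k.N_add s s' r hw hw' q hx, k.N_add s s' r (neg_mem hw) (neg_mem hw') (fun x hx => by simp [q x hx]) hx]
  simp only [map_smul, map_sub]

omit s s' in
theorem d0 {ξ : M → o.m.A} (hξ : ξ ∈ Sec I o.Pg) {ξ' : M' → o'.m.A} (hξ' : ξ' ∈ Sec I' o'.Pg)
    (q : RS 𝔉.Om φ (fun x => cj (u x)) ξ ξ') :
    RS 𝔉.Om φ (aC U u) (((bd o).d0 (Fs 𝔉 t) (base W Φ)).app (Fs 𝔉 t) ξ)
      (((bd o').d0 (Fs 𝔊 t') (base W' Φ')).app (Fs 𝔊 t') ξ') := fun x hx => by
  refine (op_cut _ (Cb.sm (cb_Pg o' k.ok')) hξ'.1 hξ'.2.2 _).trans (Eq.trans ?_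
    (congrArg _ (op_cut _ (Cb.sm (cb_Pg o k.ok)) hξ.1 hξ.2.2 _)).symm)
  refine Eq.trans (congrArg _ ?_) ((k.pr hx).cC _)
  have e := raw_d0 (Fs 𝔉 t) W Φ ξ x
  have e' := raw_d0 (Fs 𝔊 t') W' Φ' ξ' (φ x)
  rw [(adj_rem k.ok).P _ k.ht] at e
  rw [(adj_rem k.ok').P _ k.ht'] at e'
  rw [e, e']
  refine ext2 (fm_ext fun b => ?_) ?_
  · simp only [map_add, f2_i1, f2_i2, add_zero, f2_sm2, ridx_apply, map_neg, smul_neg,
      Finset.sum_neg_distrib, map_zero]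
    exact congrArg _ (k.lm.toLG.nab hx (con_adW k.lm.cn') (sa_cj (k.lm.su x hx)) (k.lm.itw_ad hx)
      (hξ.1 _) (hξ'.1 _) ((k.lm.rot.ev hx).mono q) b)
  · simp only [map_add, s2_i1, s2_i2, zero_add, s2_sm2, q x hx, r x hx, map_zero]
    exact DFunLike.congr_fun (cj_comp (k.lm.me x hx) o.ok (mem_g o (hξ.2.2 x))) _

omit s s' r
variable {F : Fr I M ι} (cU : ∀ b a, F.Cb fun x => U x b a) (cu : F.Cb u)
include cu

theorem bg : BI F 𝔉.Om 𝔊.Om φ o.Pg o'.Pg (fun x => cj (u x)) fun x => cj (trn (u x)) :=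
  ⟨Cb_cj cu, Cb_cj (Cb_clm trnL cu), fun _ => inner_cj _, fun _ hx _ => (k.pr hx).ig,
    fun _ hx _ h => by simpa only [trn_trn] using (k.pr hx).symm.ig h,
    fun _ hx _ h => ind_off h hx, fun _ hx _ h => ind_off h hx⟩

theorem bp : BI F 𝔉.Om 𝔊.Om φ o.Pp o'.Pp u fun x => trn (u x) :=
  ⟨cu, Cb_clm trnL cu, fun _ _ _ => (inner_trn' _ _ _).symm, fun _ hx _ => (k.pr hx).ip,
    fun _ hx _ h => by simpa only [trn_trn] using (k.pr hx).symm.ip h,
    fun _ hx _ h => ind_off h (mt (k.ok.sub ·) hx), fun _ hx _ h => ind_off h (mt (k.ok'.sub ·) hx)⟩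

theorem bm : BI F 𝔉.Om 𝔊.Om φ o.Pm o'.Pm u fun x => trn (u x) :=
  ⟨cu, Cb_clm trnL cu, fun _ _ _ => (inner_trn' _ _ _).symm, fun _ hx _ => (k.pr hx).im,
    fun _ hx _ h => by simpa only [trn_trn] using (k.pr hx).symm.im h,
    fun _ hx _ h => ind_off h (mt (k.ok.sub ·) hx), fun _ hx _ h => ind_off h (mt (k.ok'.sub ·) hx)⟩

include cU

theorem b1 : BI F 𝔉.Om 𝔊.Om φ o.P1 o'.P1 (fun x => ridx (U x) (cj (u x)))
    fun x => ridx (fun a b => U x b a) (cj (trn (u x))) :=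
  ⟨cb_ridx cU (Cb_cj cu), cb_ridx (fun a b => cU b a) (Cb_cj (Cb_clm trnL cu)),
    fun _ => inner_ridx _ (inner_cj _), fun _ hx _ => (k.pr hx).i1,
    fun _ hx _ h => by simpa only [trn_trn] using (k.pr hx).symm.i1 h,
    fun _ hx _ h => h.symm.trans (fm_ext fun a => by simp [Ref.P1, Ref.Pg, hx, Map77.idx_apply]),
    fun _ hx _ h => h.symm.trans (fm_ext fun a => by simp [Ref.P1, Ref.Pg, hx, Map77.idx_apply])⟩

theorem b2 : BI F 𝔉.Om 𝔊.Om φ o.P2 o'.P2 (fun x => ridx (sq2 (U x)) (cj (u x)))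
    fun x => ridx (sq2 fun a b => U x b a) (cj (trn (u x))) :=
  ⟨cb_ridx (fun _ _ => Cb_smul (cU _ _) (cU _ _)) (Cb_cj cu),
    cb_ridx (fun _ _ => Cb_smul (cU _ _) (cU _ _)) (Cb_cj (Cb_clm trnL cu)),
    fun _ => inner_ridx _ (inner_cj _), fun _ hx _ => (k.pr hx).i2,
    fun _ hx _ h => by simpa only [trn_trn] using (k.pr hx).symm.i2 h,
    fun _ hx _ h => h.symm.trans (fm_ext fun a => by simp [Ref.P2, Ref.Pg, hx, Map77.idx_apply]),
    fun _ hx _ h => h.symm.trans (fm_ext fun a => by simp [Ref.P2, Ref.Pg, hx, Map77.idx_apply])⟩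

end CI

section fr
variable {W : o.m.Cn} {W' : o'.m.Cn} {u : M → CL o.m.V o'.m.V} (k : CI o o' t t' φ U v W W' u)
  {Φ : M → o.m.V} {Φ' : M' → o'.m.V} (s : 𝔉.F0.Cb (base W Φ)) (s' : 𝔊.F0.Cb (base W' Φ'))
  (r : RS 𝔉.Om φ u Φ Φ') {j : ℕ} {d : ℤ}
include k s s' r

theorem CI.fr0 {U₀ : M → ι' → ι → ℝ} (g : PT (Fs 𝔉 t) (Fs 𝔊 t') 𝔉.Om 𝔊.Om φ ψ U₀)
    (cU : ∀ b a, (Fs 𝔉 t).Cb fun x => U x b a) (cu : (Fs 𝔉 t).Cb u)
    (H : Fr ((bd o).FF 𝔉.F0.toPre (Fs 𝔉 t) j (base W Φ)) d) :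
    Fr ((bd o').FF 𝔊.F0.toPre (Fs 𝔊 t') j (base W' Φ')) d := by
  have h := (adj_rem k.ok).hy o k.ht
  have h' := (adj_rem k.ok').hy o' k.ht'
  have bC := (k.b1 cU cu).sm2 (k.bp cu)
  obtain ⟨C, a1, a2⟩ := h.good (h.nc_d0 s)
  obtain ⟨C', a3, a4⟩ := h'.good (h'.nc_d0 s')
  refine h'.toTw.fr (h'.nc_full s') (bC.fr g ((k.bg cu).sm2 ((k.bm cu).sm2 (k.b2 cU cu)))
    (rep_OpH (h.good (h.nc_full s)).choose_spec.2 j).1
    (rep_OpH (h'.good (h'.nc_full s')).choose_spec.2 j).1 (fun w hw w' hw' q x hx => ?_)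
    ((H.conj (chg _ _ h.cmp).symm (chg _ _ h.cmp)).congr fun x => ?_))
  · refine (op_pair _ _ _ _ _).trans (Eq.trans ?_ (congrArg _ (op_pair _ _ _ _ _)).symm)
    refine ext2 ?_ ?_ <;> simp only [map_add, f2_i1, f2_i2, s2_i1, s2_i2, add_zero, zero_add,
      f2_sm2, s2_sm2, map_zero]
    · exact adj_rs g a1 a2 a3 a4 (k.bg cu) bC (fun _ hξ _ hξ' => k.d0 r hξ hξ') hw hw' q x hx
    · exact k.lin s s' r hw hw' q x hx
  · exact ((h.toTw.chg_LH (h.nc_full s) _).trans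
      (congrArg _ (ContinuousLinearEquiv.apply_symm_apply _ _))).symm

/-- **the gauge fixed linearisation is natural** -/
theorem CI.fr (g : PT (Fs 𝔉 t) (Fs 𝔊 t') 𝔉.Om 𝔊.Om φ ψ U)
    (H : Fr ((bd o).FF 𝔉.F0.toPre (Fs 𝔉 t) j (base W Φ)) d) :
    Fr ((bd o').FF 𝔊.F0.toPre (Fs 𝔊 t') j (base W' Φ')) d := by
  have c : ∀ a, (Fs 𝔉 t).Cb (W a) := fun a => ((adj_rem k.ok).tw _ k.ht).cmp.Cb_iff.1
    (by simpa only [oa_base] using Cb_clm (oa a) s)
  have c' : ∀ a, (Fs 𝔉 t).Cb (pu 𝔉.Om φ (W' a)) := fun a => g.symm.Cb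
    (((adj_rem k.ok').tw _ k.ht').cmp.Cb_iff.1 (by simpa only [oa_base] using Cb_clm (oa a) s'))
  refine CI.fr0 (U := fun x b a => 𝔉.Om.indicator (fun x => U x b a) x) (u := 𝔉.Om.indicator u)
    ⟨k.ok, k.ok', k.ht, k.ht', lm_congr k.lm (fun x hx => by simp only [indicator_of_mem hx])
      fun x hx => indicator_of_mem hx _, k.mp, k.sp⟩ s s'
    (fun x hx => by rw [indicator_of_mem hx, r x hx]) g g.cb (cb_ind_of_ode (L := fun a x =>
      (ContinuousLinearMap.compL ℝ o.m.V o.m.V o'.m.V).flip (W a x) -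
        ContinuousLinearMap.compL ℝ o.m.V o'.m.V o'.m.V
          (∑ b, 𝔉.Om.indicator (fun x => U x b a) x • pu 𝔉.Om φ (W' b) x)) k.ok.Om
      (fun x hx => ((k.lm.su x hx).of_le (by simp)).contMDiffWithinAt) (fun x hx a => ?_)
      (fun a => Cb_sub (Cb_clm _ (c a)) (Cb_clm _ (Cb_sum _ fun b _ => Cb_smul (g.cb b a) (c' b))))
      (C := 1) fun x hx => (u x).opNorm_le_bound zero_le_one fun a => ?_) H
  · simp only [indicator_of_mem hx, pu_on hx]
    exact eq_sub_of_add_eq (k.lm.itw x hx a)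
  · exact (k.lm.it.nT x hx a).trans_eq (one_mul _).symm

end fr

/-- **equivalent points have the same index** -/
theorem ff_iso {r : ℕ} {y : Pnt o r} {y' : Pnt o' r} (h : 𝔉.OK) (h' : 𝔊.OK)
    (g : LG 𝔉.B (𝔉.G y.t) 𝔊.B (𝔊.G y'.t) 𝔉.Om φ U v)
    (p : PT (Fs 𝔉 y.t) (Fs 𝔊 y'.t) 𝔉.Om 𝔊.Om φ ψ U) (sp : ∀ x ∈ 𝔉.Om, x ∈ 𝔉.Om' ↔ φ x ∈ 𝔊.Om')
    {u : M → CL o.m.V o'.m.V} {ζ : Circle} (e : CEq (𝔉.G y.t).F y.cfg y'.cfg 𝔉.Om φ U v u ζ)
    {j : ℕ} {d : ℤ} (H : Fr ((bd o).FF 𝔉.F0.toPre (Fs 𝔉 y.t) j (uy y)) d) :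
    Fr ((bd o').FF 𝔊.F0.toPre (Fs 𝔊 y'.t) j (uy y')) d :=
  CI.fr ⟨h, h', y.ht, y'.ht, (g.of_ceq (y.ad0 h) (y'.ad0 h') e).phase ζ, p.inv.maps, sp⟩
    (cb_uy h y) (cb_uy h' y') e.Φ p H

end Crest.Agent.X212.Nat27
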